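import Vale.Agent.P011UIQ.Inc
import Vale.Agent.P011UHB.Spec
import Vale.Agent.P011UV4.Tw
import Vale.Agent.P011UV.Par
import Vale.Agent.P011UB.Main

/-!
The induction on the rank.
-/

set_option autoImplicit false
set_option linter.all false

namespace Vale.Agent.P011UIQ

open Matrix Vale.Agent.P011L Vale.Agent.P183CH Vale.Agent.P183CH.Chev Vale.Agent.P011U
  Vale.Agent.P011UGR1 Vale.Agent.P011LD

section

variable {R R' : RS} {K G G' : Type} [Field K] [Group G] [Group G'] {Γ : RG R K G}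
  {Γ' : RG R' K G'} {ι : Fin R'.r ↪ Fin R.r} {f : G' →* G} {σ : K →+* K} {g : G}
  {c : Fin R.r → Kˣ} {π : Equiv.Perm (Fin R.r)}

theorem std_cj {ψ : G ≃* G} {ψ' : G → G} (h : Std Γ ψ σ g c π) {y : G}
    (e : ∀ x, ψ' x = y⁻¹ * ψ (y * x * y⁻¹) * y) : Std Γ ψ' σ (y⁻¹ * ψ y * g) c π :=
  ⟨h.1, fun i u => ⟨by rw [e, map_mul, map_mul, map_inv, (h.2 i u).1]; group,
    by rw [e, map_mul, map_mul, map_inv, (h.2 i u).2]; group⟩⟩

theorem PJ_empty (hR : R.Ok) : PJ Γ ∅ = Γ.Bo :=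
  le_antisymm (sup_le (sup_le (RG.X_le fun γ h1 h2 _ => absurd (funext fun i => h1 i id)
    (hR.sign γ h2).1) RG.T_le_Bo) RG.U_le_Bo) (sup_le le_sup_right (le_sup_of_le_left le_sup_right))

theorem std_U {ψ : G ≃* G} (hΓ : Γ.Ok) (hR : R.Ok) (h : Std Γ ψ σ g c π) {u : G} (hu : u ∈ Γ.U) :
    g⁻¹ * ψ u * g ∈ Γ.U :=
  P011UP.std_X hΓ h hR (S := {γ | 0 ≤ γ}) (S' := {γ | 0 ≤ γ})
    (fun γ e _ => P011UP.pm_nonneg e) hu

theorem Em.std (h : Em Γ Γ' ι f) {ψ : G → G} {ψ' : G' → G'} {l : G'} {m t : G}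
    {π' : Equiv.Perm (Fin R'.r)} (hs : Std Γ ψ σ (f l * m) c π) (e : ∀ x, f (ψ' x) = ψ (f x))
    (hπ : ∀ a, ι (π' a) = π (ι a)) (ht : t ∈ Γ.T)
    (hm : ∀ x ∈ LJ Γ (Set.range ι), m * x * m⁻¹ = t * x * t⁻¹) :
    Std Γ' ψ' σ l (fun a => h.hΓ.chi (R.α (π (ι a))) t * c (ι a)) π' := by
  have k : ∀ x ∈ LJ Γ (Set.range ι), f l * m * x * (f l * m)⁻¹ = f l * (t * x * t⁻¹) * (f l)⁻¹ :=
    fun x hx => by rw [← hm x hx]; group
  refine ⟨fun a b => by rw [h.A, h.A, hπ, hπ, hs.1], fun a u => ⟨h.inj ?_, h.inj ?_⟩⟩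
  · rw [e, h.e, (hs.2 _ u).1, k _ (by rw [← hπ, ← h.e]; exact h.mem _),
      h.hΓ.tx ht (h.hR.simple _), map_mul, map_mul, map_inv, h.e, hπ, Units.val_mul,
      mul_assoc (_ : K)]
  · rw [e, h.f, (hs.2 _ u).2, k _ (by rw [← hπ, ← h.f]; exact h.mem _),
      h.hΓ.tx ht (h.hR.neg_mem (h.hR.simple _)), map_mul, map_mul, map_inv, h.f, hπ, mul_inv,
      Units.val_mul, mul_assoc (_ : K), h.hΓ.chi_neg]

variable (Γ) in
/-- `S` lies between the simple root subgroups and the unipotent radical of a Borel subgroup of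
the group of `C` -/
def EE (C : Set (Fin R.r)) (S : Set G) : Prop :=
  ∃ y ∈ LJ Γ C, (∀ j ∈ C, ∀ u, y * Γ.x (R.α j) u * y⁻¹ ∈ S) ∧
    ∀ s ∈ S, s ∈ LJ Γ C ∧ y⁻¹ * s * y ∈ Γ.U

variable (hΓ : Γ.Ok) (hR : R.Ok) {ψ : G ≃* G} (h : Std Γ ψ σ g c π) {J : Set (Fin R.r)}
  (hg : g ∈ Γ.GJ J) (hJ : ∀ i, π i ∈ J ↔ i ∈ J) {i : Fin R.r} (hi : i ∈ J)
include hΓ hR hg hi

theorem spl : ∃ l ∈ LJ Γ (cmp R J i), ∃ m ∈ MM hΓ (cmp R J i) (J \ cmp R J i), g = l * m :=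
  mm_split hΓ hR (cmp_ort hR hi) (by rwa [Set.union_diff_cancel (cmp_sub hi)])

include h hJ

theorem a_mem {x : G} (hx : x ∈ LJ Γ (cmp R J i)) : ψ x ∈ LJ Γ (cmp R J (π i)) := by
  have h1 := std_LJ hΓ hR h (fun j hj => (cmp_map h.1 hJ).le ⟨j, hj, rfl⟩) hx
  obtain ⟨l, hl, m, hm, rfl⟩ := spl hΓ hR hg ((hJ i).2 hi)
  obtain ⟨t, ht, e⟩ := mm_conj hΓ hR (cmp_ort hR ((hJ i).2 hi)) hm
  have h2 := hΓ.nm_T_X _ _ ht _ h1
  rw [← e _ h1] at h2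
  exact P011UB.mem_eq (mul_mem (mul_mem hl h2) (inv_mem hl)) (by group)

theorem ee_map (hσ : Function.Surjective σ) {S : Set G} (hS : EE Γ (cmp R J i) S) :
    EE Γ (cmp R J (π i)) (ψ '' S) := by
  obtain ⟨y, hy, h1, h2⟩ := hS
  have h3 := a_mem hΓ hR h hg hJ hi hy
  obtain ⟨l, hl, m, hm, e0⟩ := spl hΓ hR hg ((hJ i).2 hi)
  obtain ⟨t, ht, e⟩ := mm_conj hΓ hR (cmp_ort hR ((hJ i).2 hi)) hm
  refine ⟨_, mul_mem h3 hl, fun j hj u => ?_, ?_⟩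
  · obtain ⟨j, hj', rfl⟩ := (cmp_map h.1 hJ).ge hj
    obtain ⟨v, hv⟩ := hσ (((hΓ.chi (R.α (π j)) t * c j)⁻¹ : Kˣ) * u)
    refine ⟨_, h1 j hj' v, ?_⟩
    have h4 := e _ (RG.x_mem (hR.simple _) (RS.In_α hj) (c j * σ v))
    rw [hΓ.tx ht (hR.simple _), ← mul_assoc (_ : K), ← Units.val_mul] at h4
    conv at h4 => rhs; rw [hv, Units.mul_inv_cancel_left]
    rw [map_mul, map_mul, map_inv, (h.2 j v).1, e0, ← h4]
    group
  · rintro _ ⟨s, hs, rfl⟩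
    have h4 := a_mem hΓ hR h hg hJ hi (h2 s hs).1
    have h5 := std_U hΓ hR h (h2 s hs).2
    have h6 := std_LJ hΓ hR h (fun j hj => (cmp_map h.1 hJ).le ⟨j, hj, rfl⟩)
      (mul_mem (mul_mem (inv_mem hy) (h2 s hs).1) hy)
    refine ⟨h4, P011UB.mem_eq (hΓ.nm_T_X _ _ ht _ h5) ?_⟩
    rw [← e _ h6, map_mul, map_mul, map_inv, e0]
    group

end

variable {k K : Type} [Field k] [Field K] [Algebra k K] {D : Chev}

theorem sub_of (hD : SC D) {J : Set (Fin D.R.r)} {i : Fin D.R.r} (hi : i ∈ J) :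
    ∃ (D' : Chev) (ι : Fin D'.R.r ↪ Fin D.R.r) (F : D'.grp K →* D.grp K), SC D' ∧
      D'.R.r ≤ J.ncard ∧ Set.range ι = cmp D.R J i ∧ Em (GG D K) (GG D' K) ι F ∧
      ∀ (k : Type) [Field k] [Algebra k K] [Algebra.IsAlgebraic k K] (T : Tw k (D.grp K)),
        (∀ σ p, ∃ q, F q = T.a σ (F p)) →
          ∃ T' : Tw k (D'.grp K), ∀ σ p, F (T'.a σ p) = T.a σ (F p) := by
  obtain ⟨r, ι, h1, h2, h3, h4⟩ := cmp_emb (R_ok D) hi
  exact ⟨subD D ι (sub_simple h1 h4), ι, inc K (sub_simple h1 h4), subD_sc _ hD, h3, h2,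
    em_inc _, fun k _ _ _ T => P011UV4.tw_sub (y := 1) T
      fun p => by rw [one_mul, inv_one, mul_one]; rfl⟩

/-- a cocycle with values in the Levi subgroup -/
structure Cz (T : Tw k (D.grp K)) (J : Set (Fin D.R.r)) (z : (K ≃ₐ[k] K) → D.grp K)
    (c : (K ≃ₐ[k] K) → Fin D.R.r → Kˣ) (π : (K ≃ₐ[k] K) →* Equiv.Perm (Fin D.R.r)) : Prop where
  std : ∀ σ, Std (GG D K) (T.a σ) (σ : K →+* K) (z σ) (c σ) (π σ)
  mem : ∀ σ, z σ ∈ (GG D K).GJ J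
  pJ : ∀ σ i, π σ i ∈ J ↔ i ∈ J
  co : ∀ σ τ, z (σ * τ) = T.a σ (z τ) * z σ
  op : Op ⊤ fun τ => z τ = 1 ∧ π τ = 1

variable [IsSepClosure k K] {T : Tw k (D.grp K)} {J : Set (Fin D.R.r)} {z c π}

theorem Cz.fix (h : Cz T J z c π) {n : ℕ} (hb : P011UHB.HBlt n) (hk : Glob k) (hr : NoR k)
    (hD : SC D) (hn : J.ncard < n) {i : Fin D.R.r} (hi : i ∈ J)
    (hC : ∀ σ, cmp D.R J (π σ i) = cmp D.R J i) :
    ∃ S, EE (GG D K) (cmp D.R J i) S ∧ ∀ σ, T.a σ '' S = S := by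
  haveI := Glob.inf hk
  haveI := Infinite.of_injective _ (algebraMap k K).injective
  have hR := R_ok D
  choose l hl m hm e using fun σ => spl GG_ok hR (h.mem σ) hi
  have am : ∀ σ, ∀ x ∈ LJ (GG D K) (cmp D.R J i), T.a σ x ∈ LJ (GG D K) (cmp D.R J i) :=
    fun σ x hx => hC σ ▸ a_mem GG_ok hR (h.std σ) (h.mem σ) (h.pJ σ) hi hx
  have pm : ∀ σ, ∀ j ∈ cmp D.R J i, π σ j ∈ cmp D.R J i := fun σ j hj =>
    (hC σ).le ((cmp_map (h.std σ).1 (h.pJ σ)).le ⟨j, hj, rfl⟩)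
  have pm' : ∀ σ, ∀ j ∈ cmp D.R J i, (π σ).symm j ∈ cmp D.R J i := fun σ j hj => by
    have := pm σ⁻¹ j hj
    rwa [map_inv] at this
  have co : ∀ σ τ, (l (σ * τ))⁻¹ * T.a σ (l τ) * l σ = 1 := fun σ τ =>
    ind hD hi (mul_mem (mul_mem (inv_mem (hl _)) (am _ _ (hl _))) (hl _)) (P011UB.mem_eq
      (mul_mem (mul_mem (hm (σ * τ)) (inv_mem (std_MM GG_ok hR (h.std σ) (pm' σ)
        (fun j (hj : j ∈ J \ cmp D.R J i) => ⟨(h.pJ σ j).2 hj.1, fun c => hj.2 (by simpa using pm' σ _ c)⟩) (hm τ))))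
        (inv_mem (hm σ))) (by
      have := h.co σ τ
      rw [e (σ * τ), e τ, map_mul] at this
      rw [eq_inv_mul_of_mul_eq this, e σ]
      group))
  choose t ht e1 using fun σ => mm_conj GG_ok hR (cmp_ort hR hi) (hm σ)
  have op : Op ⊤ fun τ => l τ = 1 := h.op.imp fun τ _ a => ind hD hi (hl τ) (by
    rw [eq_inv_of_mul_eq_one_left ((e τ).symm.trans a.1)]
    exact inv_mem (hm τ))
  obtain ⟨D', ι, F, hD', h3, h2, E, hF⟩ := sub_of (K := K) hD hi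
  rw [← h2] at am pm hl e1 ⊢
  obtain ⟨T', hT⟩ := hF k T fun σ p => E.surj _ (am σ _ (E.mem p))
  choose f hf using fun σ a => pm σ _ ⟨a, rfl⟩
  let π' : (K ≃ₐ[k] K) →* Equiv.Perm (Fin D'.R.r) := MonoidHom.toHomPerm
    { toFun := f
      map_one' := funext fun a => ι.injective (by rw [hf, map_one]; rfl)
      map_mul' := fun σ τ => funext fun a => ι.injective (by
        rw [hf, map_mul, Equiv.Perm.mul_apply, ← hf, ← hf]; rfl) }
  choose l' hl' using fun σ => E.surj _ (hl σ)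
  have st := fun σ : K ≃ₐ[k] K => E.std (ψ := T.a σ) (ψ' := T'.a σ) (σ := (σ : K →+* K)) (l := l' σ)
    (π' := π' σ) (by rw [hl', ← e]; exact h.std σ) (hT σ) (hf σ) (ht σ) (e1 σ)
  obtain ⟨y, hy⟩ := hb k K D' hk hD' T'
    (lt_of_le_of_lt h3 hn) hr (P011UQ.lift_of st (fun σ τ => E.inj (by
      rw [tz, map_mul, map_mul, map_inv, hT, hl', hl', hl', co, map_one]))
      (op.imp fun τ _ a => E.inj (by rw [hl', a, map_one])))
  have k1 : ∀ σ, ∀ u ∈ (GG D' K).U, y⁻¹ * T'.a σ (y * u * y⁻¹) * y ∈ (GG D' K).U :=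
    fun σ u hu => by
    have s1 := std_cj (st σ) (P011UP.cj_a T' y σ)
    have s2 := (P011UP.std_PJ GG_ok (R_ok _) s1 σ.surjective fun p hp =>
      (P011UP.cj_a T' y σ p).symm ▸ hy σ p hp).1
    rw [PJ_empty (R_ok _)] at s2
    refine P011UB.mem_eq (GG_ok.nm_Bo _ s2 _ (std_U GG_ok (R_ok _) s1 hu)) ?_
    rw [← P011UP.cj_a]
    group
  have k2 : ∀ σ, Set.MapsTo (T.a σ) {s | ∃ u ∈ (GG D' K).U, s = F (y * u * y⁻¹)}
      {s | ∃ u ∈ (GG D' K).U, s = F (y * u * y⁻¹)} := by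
    rintro σ _ ⟨u, hu, rfl⟩
    exact ⟨_, k1 σ u hu, by rw [← hT]; congr 1; group⟩
  refine ⟨_, ⟨_, E.mem y, ?_, ?_⟩, fun σ => (k2 σ).image_subset.antisymm fun s hs =>
    ⟨_, k2 σ⁻¹ hs, by rw [map_inv, MulAut.apply_inv_self]⟩⟩
  · rintro _ ⟨a, rfl⟩ u
    exact ⟨_, RG.x_mem (S := {γ | 0 ≤ γ}) (E.hR'.simple a) (RS.α_nonneg a) u,
      by rw [map_mul, map_mul, map_inv, E.e]⟩
  · rintro _ ⟨u, hu, rfl⟩
    exact ⟨E.mem _, P011UB.mem_eq (E.U hu) (by rw [map_mul, map_mul, map_inv]; group)⟩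

theorem Cz.res (h : Cz T J z c π) (L : IntermediateField k K) :
    Cz (P011UC.res T L) J (fun σ => z (rs L σ)) (fun σ => c (rs L σ)) (π.comp (rs L)) :=
  ⟨fun σ => h.std (rs L σ), fun _ => h.mem _, fun _ => h.pJ _, fun σ τ => h.co (rs L σ) (rs L τ),
    P011UQ.near_op (near_res (P011UQ.op_near h.op) L)⟩

theorem Cz.bor (h : Cz T J z c π) {n : ℕ} (hb : P011UHB.HBlt n) (hk : Glob k) (hr : NoR k)
    (hD : SC D) (hn : J.ncard < n) : FixP T ∅ := by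
  have hR := R_ok D
  have cm := fun σ (i : Fin D.R.r) => cmp_map (i := i) (h.std σ).1 (h.pJ σ)
  obtain ⟨s, h1, h2⟩ := sect (fun σ (C : Set (Fin D.R.r)) => π σ '' C)
    (fun σ (S : Set (D.grp K)) => T.a σ '' S) (fun C => by simp)
    (fun σ τ C => by rw [map_mul, Equiv.Perm.coe_mul, Set.image_comp])
    (fun σ τ S => by rw [map_mul, MulAut.coe_mul, Set.image_comp])
    (fun C S => ∀ i ∈ J, C = cmp D.R J i → EE (GG D K) C S) (fun σ C S hS i hi e => by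
      obtain ⟨i, rfl⟩ := (π σ).surjective i
      obtain rfl := (Set.image_injective.2 (π σ).injective) (e.trans (cm σ i).symm)
      rw [cm]
      exact ee_map GG_ok hR (h.std σ) (h.mem σ) (h.pJ σ) ((h.pJ σ i).1 hi) σ.surjective
        (hS i ((h.pJ σ i).1 hi) rfl)) fun C => by
      by_cases hC : ∃ i ∈ J, C = cmp D.R J i
      swap
      · exact ⟨∅, fun i hi e => absurd ⟨i, hi, e⟩ hC, fun _ _ => Set.image_empty _⟩
      obtain ⟨i, hi, rfl⟩ := hC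
      let H : Subgroup (K ≃ₐ[k] K) :=
        { carrier := {σ | π σ '' cmp D.R J i = cmp D.R J i}
          one_mem' := by simp
          mul_mem' := fun {σ τ} a b => by
            rw [Set.mem_setOf_eq, map_mul, Equiv.Perm.coe_mul, Set.image_comp, b, a]
          inv_mem' := fun {σ} a => by
            rw [Set.mem_setOf_eq, map_inv]
            conv_lhs => rw [← a, ← Set.image_comp]
            simp }
      obtain ⟨L, _, hL⟩ := exists_field (Γ := H) (P011UQ.op_near (h.op.imp fun τ _ a => by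
        show π τ '' _ = _
        rw [a.2]
        simp))
      haveI := sepCl L
      obtain ⟨S, h3, h4⟩ := (h.res L).fix hb (Glob.fin hk)
        ⟨fun φ => hr.false (φ.comp (algebraMap k L))⟩ hD hn hi fun σ =>
          (cm _ i).symm.trans ((hL _).2 ⟨σ, rfl⟩)
      refine ⟨S, fun _ _ _ => h3, fun σ a => ?_⟩
      obtain ⟨τ, rfl⟩ := (hL σ).1 a
      exact h4 τ
  let I := {C // ∃ i ∈ J, C = cmp D.R J i}
  choose y hy h3 h4 using fun C : I => h1 C.1 _ C.2.choose_spec.1 C.2.choose_spec.2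
  obtain ⟨Y, hY, h5⟩ := exists_prod (fun C : I => LJ (GG D K) C.1) (LJ (GG D K) J) (by
      rintro ⟨_, i, hi, rfl⟩ ⟨_, j, hj, rfl⟩ ne a ha b hb
      exact comm_LJ GG_ok hR (fun a ha b hb => cmp_ort hR hi a ha b ⟨cmp_sub hj hb, fun c =>
        ne (Subtype.ext ((cmp_eq hR c).symm.trans (cmp_eq hR hb)))⟩) ha hb)
    (by rintro ⟨_, i, hi, rfl⟩; exact LJ_mono (cmp_sub hi)) y hy
  have hY' : Y ∈ (GG D K).GJ J := Subgroup.mem_sup_left hY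
  obtain ⟨μ, hμ, -⟩ := P011UP.exists_dom hR J
  refine ⟨Y, fun σ p hp => ?_⟩
  have s1 := std_cj (ψ' := (P011UP.cj T Y).a σ) (h.std σ) (P011UP.cj_a T Y σ)
  have s2 : Y⁻¹ * T.a σ Y * z σ ∈ (GG D K).Bo := P011UQ.bo_of GG_ok hR fun j => by
    obtain ⟨j, rfl⟩ := (π σ).surjective j
    refine ⟨c σ j * σ 1, by simp, ?_⟩
    by_cases hj : j ∈ J
    · let C : I := ⟨_, j, hj, rfl⟩
      let C' : I := ⟨_, _, (h.pJ σ j).2 hj, rfl⟩
      have a1 := h3 C j cmp_self 1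
      rw [← h5 C _ (RG.x_mem (hR.simple j) (RS.In_α cmp_self) 1)] at a1
      have a2 := h4 C' _ ((congrArg s (cm σ j)).le ((h2 σ _).le ⟨_, a1, rfl⟩))
      have a3 := h5 C' _ (mul_mem (mul_mem (inv_mem (hy C')) a2.1) (hy C'))
      refine P011UB.mem_eq a2.2 (((?_ : _ = _).trans (P011UP.cj_a T Y σ _).symm).trans
        (s1.2 j 1).1)
      rw [eq_inv_mul_of_mul_eq (eq_mul_of_mul_inv_eq a3)]
      group
    · refine P011UP.RJ_le_U (P011UP.nm_GJ GG_ok hR hμ one_pos _ (mul_mem (mul_mem (inv_mem hY')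
        ?_) (h.mem σ)) _ (RG.x_mem (S := P011UP.Lv μ 1) (hR.simple _) ⟨⟨hR.simple _, RS.α_nonneg _⟩,
          hμ.2 _ fun c => hj ((h.pJ σ j).1 c)⟩ _))
      exact P011UB.mem_eq (mul_mem (mul_mem (h.mem σ) (Subgroup.mem_sup_left (std_LJ GG_ok hR
        (h.std σ) (fun i hi => (h.pJ σ i).2 hi) hY))) (inv_mem (h.mem σ))) (by group)
  rw [PJ_empty hR] at hp ⊢
  obtain ⟨u, hu, t, ht, rfl⟩ := GG_ok.mem_Bo.1 hp
  refine P011UB.mem_eq (mul_mem (mul_mem s2 (mul_mem (RG.U_le_Bo (std_U GG_ok hR s1 hu))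
    (RG.T_le_Bo (P011UP.std_T GG_ok s1 ht)))) (inv_mem s2)) ?_
  rw [← P011UP.cj_a, map_mul ((P011UP.cj T Y).a σ)]
  group

theorem isq : P011UHB.ISQ := by
  intro n hb k K _ _ _ _ D hk hD T hn hr ⟨g, c, π, h1, h2⟩ an
  haveI := Glob.inf hk
  have nfx := P011UC.nfx P011UB.aut
  obtain ⟨J, hJ, y, hy⟩ := (P011UV.parx nfx k K D hD T).1 an
  obtain ⟨u, -, g', c', π', h3, h4⟩ := P011UP.lev' nfx k K D hD T J y fun σ p hp =>
    (P011UP.cj_a T y σ p).symm ▸ hy σ p hp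
  obtain ⟨p, w, hp, h5, -⟩ := P011UQ.nf_co hD h1
  obtain rfl : π = p := funext fun σ => (hp σ).symm
  generalize y * u = Y at h3
  have s1 := fun σ : K ≃ₐ[k] K => std_cj (σ := (σ : K →+* K)) (ψ' := (P011UP.cj T Y).a σ) (h1.1 σ)
    (P011UP.cj_a T Y σ)
  have s2 := fun σ => P011UQ.std_uniq GG_ok (R_ok D) (s1 σ) (h3.1 σ) (map_one _)
  obtain ⟨Y', h6⟩ := Cz.bor (T := P011UP.cj T Y) (J := J) (π := p) ⟨s1, fun σ => by
      obtain ⟨-, s, e, -⟩ := s2 σ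
      rw [eq_mul_of_inv_mul_eq e]
      exact Subgroup.mul_mem_sup (h4 σ).1 (GG_ok.hT_mem s),
    fun σ => (s2 σ).1 ▸ (h4 σ).2, fun σ τ => by
      have := h2 σ τ
      rw [tz, mul_assoc, inv_mul_eq_one] at this
      rw [P011UP.cj_a, this, map_mul T.a, MulAut.mul_apply]
      simp only [map_mul, map_inv]
      group,
    ((P011UQ.tw_fix T Y).and ((P011UQ.near_op h1.2.2).and h5.op)).imp fun τ _ a =>
      ⟨by rw [a.1, inv_mul_cancel, one_mul, ← one_mul τ, (a.2.1 1).1, h1.2.1], a.2.2.1⟩⟩ hb hk hr hD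
    (lt_of_lt_of_le (by
      simpa using Set.ncard_lt_ncard (Set.ssubset_univ_iff.2 hJ)) hn)
  refine ⟨Y * Y', fun σ p hp => P011UB.mem_eq (h6 σ p hp) ?_⟩
  rw [P011UP.cj_a, show Y * Y' * p * (Y * Y')⁻¹ = Y * (Y' * p * Y'⁻¹) * Y⁻¹ by group]
  group

end Vale.Agent.P011UIQ
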