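import Vale.Agent.P011UGR1.Sub
import Vale.Agent.P011UQ.Tz
import Vale.Agent.P011UP.Lev

/-!
Components of a set of nodes and the decomposition of the Levi subgroups.
-/

set_option autoImplicit false
set_option linter.all false

namespace Vale.Agent.P011UIQ

open Matrix Vale.Agent.P011L Vale.Agent.P183CH Vale.Agent.P183CH.Chev Vale.Agent.P011U
  Vale.Agent.P011UGR1

/-- Equivariant sections. -/
theorem sect {Γ I X : Type} [Group Γ] (ρ : Γ → I → I) (A : Γ → X → X) (ρ1 : ∀ i, ρ 1 i = i)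
    (ρm : ∀ σ τ i, ρ (σ * τ) i = ρ σ (ρ τ i)) (Am : ∀ σ τ x, A (σ * τ) x = A σ (A τ x))
    (E : I → X → Prop) (hE : ∀ σ i x, E i x → E (ρ σ i) (A σ x))
    (hf : ∀ i, ∃ x, E i x ∧ ∀ σ, ρ σ i = i → A σ x = x) :
    ∃ s : I → X, (∀ i, E i (s i)) ∧ ∀ σ i, A σ (s i) = s (ρ σ i) := by
  letI : MulAction Γ I := { smul := ρ, one_smul := ρ1, mul_smul := ρm }
  choose x h1 h2 using hf
  let o : I → I := fun i => (Quotient.mk (MulAction.orbitRel Γ I) i).out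
  have ho : ∀ i, ∃ g : Γ, ρ g (o i) = i := fun i =>
    (MulAction.orbitRel Γ I).symm (Quotient.mk_out (s := MulAction.orbitRel Γ I) i)
  choose g hg using ho
  refine ⟨fun i => A (g i) (x (o i)), fun i => ?_, fun σ i => ?_⟩
  · have := hE (g i) _ _ (h1 (o i))
    rwa [hg] at this
  · have e : o (ρ σ i) = o i := congrArg Quotient.out (Quotient.sound ⟨σ, rfl⟩)
    have := h2 (o i) ((g (ρ σ i))⁻¹ * (σ * g i)) (by
      have := congrArg (ρ (g (ρ σ i))⁻¹) (hg (ρ σ i))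
      rw [← ρm, inv_mul_cancel, ρ1, e] at this
      rw [ρm, ρm, hg, ← this])
    beta_reduce
    rw [e]
    conv_rhs => rw [← this, ← Am, mul_inv_cancel_left, Am]

/-- Simultaneous conjugation in commuting subgroups. -/
theorem exists_prod {G I : Type} [Group G] [Finite I] (L : I → Subgroup G) (M : Subgroup G)
    (hc : ∀ i j, i ≠ j → ∀ a ∈ L i, ∀ b ∈ L j, Commute a b) (hM : ∀ i, L i ≤ M) (y : I → G)
    (hy : ∀ i, y i ∈ L i) : ∃ Y ∈ M, ∀ i, ∀ x ∈ L i, Y * x * Y⁻¹ = y i * x * (y i)⁻¹ := by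
  classical
  have key : ∀ s : Finset I, ∃ Y ∈ M, ∀ i, ∀ x ∈ L i,
      (i ∈ s → Y * x * Y⁻¹ = y i * x * (y i)⁻¹) ∧ (i ∉ s → Y * x * Y⁻¹ = x) := by
    intro s
    induction s using Finset.induction_on with
    | empty => exact ⟨1, one_mem _, fun i x _ => ⟨fun h => absurd h (by simp), fun _ => by simp⟩⟩
    | insert a s ha ih =>
      obtain ⟨Y, h1, h2⟩ := ih
      refine ⟨Y * y a, mul_mem h1 (hM a (hy a)), fun i x hx => ?_⟩
      have e : Y * y a * x * (Y * y a)⁻¹ = Y * (y a * x * (y a)⁻¹) * Y⁻¹ := by group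
      rw [e]
      by_cases h : i = a
      · subst h
        exact ⟨fun _ => (h2 i _ (mul_mem (mul_mem (hy i) hx) (inv_mem (hy i)))).2 ha,
          fun c => absurd (Finset.mem_insert_self _ _) c⟩
      · rw [(hc a i (Ne.symm h) _ (hy a) x hx).eq, mul_inv_cancel_right]
        simpa [h] using h2 i x hx
  cases nonempty_fintype I
  obtain ⟨Y, h1, h2⟩ := key Finset.univ
  exact ⟨Y, h1, fun i x hx => (h2 i x hx).1 (Finset.mem_univ i)⟩

section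

variable {R : RS} {J : Set (Fin R.r)} {i j : Fin R.r}

variable (R) in
/-- the component of the node `i` in `J` -/
def cmp (J : Set (Fin R.r)) (i : Fin R.r) : Set (Fin R.r) :=
  {j | Relation.ReflTransGen (fun a b => a ∈ J ∧ b ∈ J ∧ R.A b a ≠ 0) i j}

theorem cmp_self : i ∈ cmp R J i := Relation.ReflTransGen.refl

theorem cmp_sub (hi : i ∈ J) : cmp R J i ⊆ J := fun j hj => by
  induction hj with
  | refl => exact hi
  | tail _ h _ => exact h.2.1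

theorem cmp_symm (hR : R.Ok) (h : j ∈ cmp R J i) : i ∈ cmp R J j := by
  induction h with
  | refl => exact cmp_self
  | tail _ e ih =>
    exact Relation.ReflTransGen.head ⟨e.2.1, e.1, fun c => e.2.2 (hR.A_zero_comm.1 c)⟩ ih

theorem cmp_eq (hR : R.Ok) (h : j ∈ cmp R J i) : cmp R J j = cmp R J i :=
  Set.ext fun _ => ⟨fun e => Relation.ReflTransGen.trans h e, fun e =>
    Relation.ReflTransGen.trans (cmp_symm hR h) e⟩

theorem cmp_ort (hR : R.Ok) (hi : i ∈ J) : ∀ a ∈ cmp R J i, ∀ b ∈ J \ cmp R J i, R.A a b = 0 :=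
  fun a ha b hb => hR.A_zero_comm.1 (by_contra fun c =>
    hb.2 (Relation.ReflTransGen.tail ha ⟨cmp_sub hi ha, hb.1, c⟩))

theorem cmp_map {π : Equiv.Perm (Fin R.r)} (h : Dg R π) (hJ : ∀ i, π i ∈ J ↔ i ∈ J) :
    π '' cmp R J i = cmp R J (π i) := by
  have key : ∀ {π : Equiv.Perm (Fin R.r)}, Dg R π → (∀ i, π i ∈ J ↔ i ∈ J) → ∀ {i j},
      j ∈ cmp R J i → π j ∈ cmp R J (π i) := fun h hJ _ _ e => by
    induction e with
    | refl => exact cmp_self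
    | tail _ c ih =>
      exact Relation.ReflTransGen.tail ih ⟨(hJ _).2 c.1, (hJ _).2 c.2.1, (h _ _).trans_ne c.2.2⟩
  refine Set.Subset.antisymm (by rintro _ ⟨j, hj, rfl⟩; exact key h hJ hj) fun j hj =>
    ⟨π.symm j, ?_, π.apply_symm_apply j⟩
  have := key (π := π.symm) (fun a b => by simpa using (h (π.symm a) (π.symm b)).symm)
    (fun a => by simpa using (hJ (π.symm a)).symm) hj
  rwa [π.symm_apply_apply] at this

theorem cmp_emb (hR : R.Ok) (hi : i ∈ J) : ∃ (m : ℕ) (ι : Fin m ↪ Fin R.r), 0 < m ∧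
    Set.range ι = cmp R J i ∧ m ≤ J.ncard ∧ ∀ (P : Fin m → Prop) (a b : Fin m), P a →
      (∀ a b, P a → R.A (ι b) (ι a) ≠ 0 → P b) → P b := by
  classical
  let e := (Finite.equivFin (cmp R J i)).symm
  let ι : Fin (Nat.card (cmp R J i)) ↪ Fin R.r := e.toEmbedding.trans (.subtype _)
  have h1 : Set.range ι = cmp R J i := Set.ext fun j =>
    ⟨by rintro ⟨a, rfl⟩; exact (e a).2, fun h => ⟨e.symm ⟨j, h⟩,
      congrArg Subtype.val (e.apply_symm_apply _)⟩⟩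
  refine ⟨_, ι, (e.symm ⟨i, cmp_self⟩).pos, h1, Set.ncard_le_ncard (cmp_sub hi), fun P a b ha h => ?_⟩
  have h2 : cmp R J (ι a) = cmp R J i := cmp_eq hR (h1.le ⟨a, rfl⟩)
  have h3 : ∀ j ∈ cmp R J (ι a), ∀ b, ι b = j → P b := fun j hj => by
    induction hj with
    | refl => exact fun b e => ι.injective e ▸ ha
    | tail h4 h5 ih =>
      obtain ⟨c, rfl⟩ := h1.ge (h2.le h4)
      exact fun b e => h c b (ih c rfl) (e ▸ h5.2.2)
  exact h3 _ (h2.ge (h1.le ⟨b, rfl⟩)) b rfl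

variable {K G : Type} [Field K] [Group G] {Γ : RG R K G} (hΓ : Γ.Ok) (hR : R.Ok)
include hΓ hR

theorem hT_LJ {s : Fin R.r → Kˣ} (h : ∀ i ∉ J, s i = 1) : hΓ.hT s ∈ LJ Γ J := by
  classical
  have h1 : ∀ i ∈ J, ∀ u, Γ.x (R.α i) u ∈ LJ Γ J ∧ Γ.x (-R.α i) u ∈ LJ Γ J := fun i hi u =>
    ⟨RG.x_mem (hR.simple i) (RS.In_α hi) u, RG.x_mem (hR.neg_mem (hR.simple i)) (RS.In_α hi).neg u⟩
  rw [← Finset.univ_prod_mulSingle s]
  refine Finset.prod_induction _ (fun s => hΓ.hT s ∈ LJ Γ J)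
    (fun a b ha hb => by rw [map_mul]; exact mul_mem ha hb) (by rw [map_one]; exact one_mem _)
    fun i _ => ?_
  by_cases hi : i ∈ J
  · rw [hΓ.hT_single, ← mul_inv_eq_iff_eq_mul.2 (hΓ.sl i (s i))]
    exact mul_mem (mul_mem (mul_mem (h1 i hi _).1 (h1 i hi _).2) (h1 i hi _).1)
      (inv_mem (mul_mem (mul_mem (h1 i hi _).1 (h1 i hi _).2) (h1 i hi _).1))
  · rw [h i hi, Pi.mulSingle_one, map_one]
    exact one_mem _

omit hR in
/-- the complement of `LJ C` -/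
def MM (C C' : Set (Fin R.r)) : Subgroup G where
  carrier := {m | ∃ b ∈ LJ Γ C', ∃ s, (∀ i ∈ C, s i = 1) ∧ m = b * hΓ.hT s}
  one_mem' := ⟨1, one_mem _, 1, fun _ _ => rfl, by simp⟩
  mul_mem' := by
    rintro _ _ ⟨b, hb, s, hs, rfl⟩ ⟨b', hb', s', hs', rfl⟩
    exact ⟨_, mul_mem hb (hΓ.nm_T_X _ _ (hΓ.hT_mem s) _ hb'), s * s',
      fun i hi => by simp [hs i hi, hs' i hi], by rw [map_mul]; group⟩
  inv_mem' := by
    rintro _ ⟨b, hb, s, hs, rfl⟩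
    exact ⟨_, hΓ.nm_T_X _ _ (hΓ.hT_mem s⁻¹) _ (inv_mem hb), s⁻¹,
      fun i hi => by simp [hs i hi], by rw [map_inv]; group⟩

theorem mm_split {C C' : Set (Fin R.r)} (h : ∀ a ∈ C, ∀ b ∈ C', R.A a b = 0) {z : G}
    (hz : z ∈ Γ.GJ (C ∪ C')) : ∃ l ∈ LJ Γ C, ∃ m ∈ MM hΓ C C', z = l * m := by
  classical
  obtain ⟨l, hl, t, ht, rfl⟩ := P011UP.GJ_split hΓ hz
  obtain ⟨a, ha, b, hb, rfl⟩ := LJ_split hΓ hR h hl
  obtain ⟨s, rfl⟩ := hΓ.exists_hT ht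
  have h1 := hT_LJ hΓ hR (J := C) (s := fun i => if i ∈ C then s i else 1) fun i hi => if_neg hi
  refine ⟨_, mul_mem ha h1, _, ⟨b, hb, fun i => if i ∈ C then 1 else s i, fun i hi => if_pos hi,
    rfl⟩, ?_⟩
  rw [mul_assoc a, mul_assoc a, ← mul_assoc (hΓ.hT _) b, (comm_LJ hΓ hR h h1 hb).eq, mul_assoc b, ← map_mul]
  congr 3
  funext i
  by_cases hi : i ∈ C <;> simp [hi]

theorem mm_conj {C C' : Set (Fin R.r)} (h : ∀ a ∈ C, ∀ b ∈ C', R.A a b = 0) {m : G}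
    (hm : m ∈ MM hΓ C C') : ∃ t ∈ Γ.T, ∀ x ∈ LJ Γ C, m * x * m⁻¹ = t * x * t⁻¹ := by
  obtain ⟨b, hb, s, -, rfl⟩ := hm
  refine ⟨_, hΓ.hT_mem s, fun x hx => ?_⟩
  have := (comm_LJ hΓ hR h (hΓ.nm_T_X _ _ (hΓ.hT_mem s) _ hx) hb).eq
  calc _ = b * (hΓ.hT s * x * (hΓ.hT s)⁻¹) * b⁻¹ := by group
    _ = _ := by rw [← this, mul_inv_cancel_right]

variable {ψ : G ≃* G} {σ : K →+* K} {g : G} {c : Fin R.r → Kˣ} {π : Equiv.Perm (Fin R.r)}

theorem std_LJ (h : Std Γ ψ σ g c π) {C C' : Set (Fin R.r)} (hC : ∀ i ∈ C, π i ∈ C') {x : G}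
    (hx : x ∈ LJ Γ C) : g⁻¹ * ψ x * g ∈ LJ Γ C' :=
  P011UP.std_X hΓ h hR (S := {γ | R.In C γ}) (S' := {γ | R.In C' γ})
    (fun γ e _ i hi => e _ fun c => hi (by simpa using hC _ c)) hx

theorem std_MM (h : Std Γ ψ σ g c π) {C C' : Set (Fin R.r)} (hC : ∀ i ∈ C, π.symm i ∈ C)
    (hC' : ∀ i ∈ C', π i ∈ C') {m : G} (hm : m ∈ MM hΓ C C') : g⁻¹ * ψ m * g ∈ MM hΓ C C' := by
  obtain ⟨b, hb, s, hs, rfl⟩ := hm
  refine ⟨_, std_LJ hΓ hR h hC' hb, fun i => Units.map (σ : K →* K) (s (π.symm i)),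
    fun i hi => by beta_reduce; rw [hs _ (hC i hi), map_one], ?_⟩
  rw [map_mul, P011UP.std_hT hΓ h]
  group

end

end Vale.Agent.P011UIQ
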