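import Vale.Agent.P011UIQ.Grp

/-!
The group of a component inside the Levi subgroup.
-/

set_option autoImplicit false
set_option linter.all false

namespace Vale.Agent.P011UIQ

open Matrix Vale.Agent.P011L Vale.Agent.P183CH Vale.Agent.P183CH.Chev Vale.Agent.P011U
  Vale.Agent.P011UGR1

section

variable {R R' : RS} {K G G' : Type} [Field K] [Group G] [Group G'] {Γ : RG R K G}
  {Γ' : RG R' K G'} {ι : Fin R'.r ↪ Fin R.r} {f : G' →* G}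

variable (Γ Γ' ι f) in
/-- `f` identifies `G'` with the derived group of a Levi subgroup -/
structure Em : Prop where
  hR : R.Ok
  hR' : R'.Ok
  hΓ : Γ.Ok
  hΓ' : Γ'.Ok
  A : ∀ a b, R'.A a b = R.A (ι a) (ι b)
  inj : Function.Injective f
  mem : ∀ g, f g ∈ LJ Γ (Set.range ι)
  surj : ∀ g ∈ LJ Γ (Set.range ι), ∃ x, f x = g
  e : ∀ a u, f (Γ'.x (R'.α a) u) = Γ.x (R.α (ι a)) u
  f : ∀ a u, f (Γ'.x (-R'.α a) u) = Γ.x (-R.α (ι a)) u

variable (h : Em Γ Γ' ι f)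
include h

theorem Em.n (a : Fin R'.r) : f (Γ'.n a) = Γ.n (ι a) := by
  unfold RG.n
  rw [map_mul, map_mul, h.e, h.f]

theorem Em.co (a : Fin R'.r) (t : Kˣ) : f (Γ'.h a t) = Γ.h (ι a) t := by
  apply mul_right_cancel (b := Γ.n (ι a))
  rw [← h.hΓ.sl, ← h.n, ← map_mul, ← h.hΓ'.sl, map_mul, map_mul, h.e, h.f]

theorem Em.x : ∀ γ ∈ R'.Φ, ∃ δ ∈ R.Φ, (∀ a, δ (ι a) = γ a) ∧
    R.In (Set.range ι) δ ∧ ∃ d : Kˣ, ∀ u, f (Γ'.x γ u) = Γ.x δ (d * u) := by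
  refine P011UP.rt_ind h.hR' (fun a => ⟨_, h.hR.simple (ι a), fun b => ?_,
    RS.In_α ⟨a, rfl⟩, 1, fun u => by rw [h.e, Units.val_one, one_mul]⟩)
    fun a γ hγ ⟨δ, h1, h2, h3, d, h4⟩ => ?_
  · simp [RS.α_apply]
  obtain ⟨c, hc⟩ := h.hΓ'.rep_conj h.hR' (RG.rep_n a) hγ
  obtain ⟨c', hc'⟩ := h.hΓ.rep_conj h.hR (RG.rep_n (ι a)) h1
  have e : R.pr δ (ι a) = R'.pr γ a := by
    rw [RS.pr_eq, RS.pr_eq]
    symm
    refine Finset.sum_of_injOn ι ι.injective.injOn (fun _ _ => Finset.mem_coe.2 (Finset.mem_univ _))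
      (fun i _ hi => by rw [h3 i fun ⟨b, e⟩ => hi ⟨b, by simp, e⟩, zero_mul]) fun b _ => ?_
    rw [h2, h.A]
  refine ⟨_, h.hR.refl (ι a) δ h1, fun b => ?_, fun i hi => ?_, c' * d * c⁻¹, fun u => ?_⟩
  · simp [RS.s, e, h2, RS.α_apply]
  · simp [RS.s, h3 i hi, RS.α_ne (fun e : i = ι a => hi ⟨a, e.symm⟩)]
  · rw [h.hR'.sE_apply] at hc
    rw [h.hR.sE_apply] at hc'
    rw [← Units.mul_inv_cancel_left c u, ← (hc _).1, map_mul, map_mul, map_inv, h.n, h4,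
      (hc' _).1]
    simp [mul_assoc]

theorem Em.U {u : G'} (hu : u ∈ Γ'.U) : f u ∈ Γ.U := by
  refine (RG.X_le (K := Γ.U.comap f) fun γ h1 h2 a => ?_) hu
  obtain ⟨δ, h3, h4, h5, d, h6⟩ := h.x γ h2
  rw [Subgroup.mem_comap, h6]
  refine RG.x_mem (S := {γ | 0 ≤ γ}) h3 (fun i => ?_) _
  by_cases e : i ∈ Set.range ι
  · obtain ⟨b, rfl⟩ := e
    exact (h4 b).symm ▸ h1 b
  · exact (h5 i e).ge

theorem Em.tor {a t : G} (ha : a ∈ LJ Γ (Set.range ι)) (ht : t ∈ Γ.T)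
    (e : ∀ x ∈ LJ Γ (Set.range ι), a * x * a⁻¹ = t * x * t⁻¹) :
    ∃ s, (∀ i ∉ Set.range ι, s i = 1) ∧ h.hΓ.hT s = a := by
  obtain ⟨a, rfl⟩ := h.surj a ha
  have hR := h.hR'
  have := P011UQ.t_of h.hΓ' hR (z := a) (fun j => ⟨1, one_ne_zero, by
    rw [show a * Γ'.x (R'.α j) 1 * a⁻¹ = Γ'.x (R'.α j) (h.hΓ.chi (R.α (ι j)) t * 1)
      from h.inj (by
      rw [map_mul, map_mul, map_inv, e _ (h.mem _), h.e j 1, h.hΓ.tx ht (h.hR.simple _), h.e])]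
    exact RG.x_mem (S := {γ | 0 ≤ γ}) (hR.simple j) (RS.α_nonneg j) _⟩) fun j => ⟨1, one_ne_zero, by
    rw [show a * Γ'.x (-R'.α j) 1 * a⁻¹ = Γ'.x (-R'.α j) (h.hΓ.chi (-R.α (ι j)) t * 1)
      from h.inj (by
      rw [map_mul, map_mul, map_inv, e _ (h.mem _), h.f j 1,
        h.hΓ.tx ht (h.hR.neg_mem (h.hR.simple _)), h.f])]
    exact RG.x_mem (S := {γ | γ ≤ 0}) (hR.neg_mem (hR.simple j)) (neg_nonpos.2 (RS.α_nonneg j)) _⟩
  clear e ha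
  induction this using Subgroup.closure_induction with
  | mem x hx =>
    obtain ⟨a, t, rfl⟩ := hx
    exact ⟨Pi.mulSingle (ι a) t, fun b hb => Pi.mulSingle_eq_of_ne (fun e => hb ⟨a, e.symm⟩) _,
      (h.hΓ.hT_single _ _).trans (h.co a t).symm⟩
  | one => exact ⟨1, fun _ _ => rfl, by simp⟩
  | mul x y _ _ hx hy =>
    obtain ⟨s, h1, h2⟩ := hx
    obtain ⟨s', h1', h2'⟩ := hy
    exact ⟨s * s', fun a ha => by simp [h1 a ha, h1' a ha], by rw [map_mul, map_mul, h2, h2']⟩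
  | inv x _ hx =>
    obtain ⟨s, h1, h2⟩ := hx
    exact ⟨s⁻¹, fun a ha => by simp [h1 a ha], by rw [map_inv, map_inv, h2]⟩

end

variable {K : Type} [Field K] {D : Chev}

theorem em_inc {m : ℕ} {ι : Fin m ↪ Fin D.r} (h : LieAlgebra.IsSimple ℂ (sL D ι)) :
    Em (GG D K) (GG (subD D ι h) K) ι (inc K h) :=
  ⟨R_ok _, R_ok _, GG_ok, GG_ok, fun _ _ => rfl, inc_inj h, inc_mem h, fun _ => inc_surj h,
    inc_e h, inc_f h⟩

theorem tor_cmp {J : Set (Fin D.R.r)} {i : Fin D.R.r} (hi : i ∈ J) {a t : D.grp K}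
    (ha : a ∈ LJ (GG D K) (cmp D.R J i)) (ht : t ∈ (GG D K).T)
    (e : ∀ x ∈ LJ (GG D K) (cmp D.R J i), a * x * a⁻¹ = t * x * t⁻¹) :
    ∃ s, (∀ j ∉ cmp D.R J i, s j = 1) ∧ GG_ok.hT s = a := by
  obtain ⟨m, ι, h1, h2, -, h3⟩ := cmp_emb (R_ok D) hi
  rw [← h2] at ha e ⊢
  exact (em_inc (sub_simple h1 h3)).tor ha ht e

/-- The torus of the derived group of a Levi subgroup. -/
theorem lj_T (hD : SC D) (n : ℕ) : ∀ J : Set (Fin D.R.r), J.ncard ≤ n → ∀ s,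
    (GG_ok (D := D) (k := K)).hT s ∈ LJ (GG D K) J → ∀ i ∉ J, s i = 1 := by
  have h0 : ∀ s, (GG_ok (D := D) (k := K)).hT s ∈ LJ (GG D K) ∅ → s = 1 := fun s hs => by
    rw [LJ_eq (R_ok D) GG_ok] at hs
    refine hD.hT_inj ((Subgroup.mem_bot.1 ((Subgroup.closure_le ⊥).2 ?_ hs)).trans (map_one _).symm)
    rintro _ ⟨j, hj, -⟩
    exact hj.elim
  induction n with
  | zero =>
    intro J hJ s hs i _
    rw [(Set.ncard_eq_zero).1 (Nat.le_zero.1 hJ)] at hs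
    rw [h0 s hs]
    rfl
  | succ n ih =>
    intro J hJ s hs i hi
    rcases J.eq_empty_or_nonempty with rfl | ⟨j, hj⟩
    · rw [h0 s hs]
      rfl
    have o := cmp_ort (R_ok D) hj
    rw [← Set.union_diff_cancel (cmp_sub hj)] at hs
    obtain ⟨a, ha, b, hb, e⟩ := LJ_split GG_ok (R_ok D) o hs
    obtain ⟨s', h1, rfl⟩ := tor_cmp hj ha (GG_ok.hT_mem s) fun x hx => by
      rw [e, mul_assoc a b, ← (comm_LJ GG_ok (R_ok D) o hx hb).eq]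
      group
    have := ih (J \ cmp D.R J j) (Nat.lt_succ_iff.1 (lt_of_lt_of_le (Set.ncard_lt_ncard
      ⟨Set.diff_subset, fun c => (c hj).2 cmp_self⟩) hJ)) (s'⁻¹ * s)
      (by rw [map_mul, map_inv, e, inv_mul_cancel_left]; exact hb) i fun c => hi c.1
    simpa [h1 i fun c => hi (cmp_sub hj c)] using this

theorem ind (hD : SC D) {J : Set (Fin D.R.r)} {i : Fin D.R.r} (hi : i ∈ J) {a : D.grp K}
    (ha : a ∈ LJ (GG D K) (cmp D.R J i))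
    (hm : a ∈ MM GG_ok (cmp D.R J i) (J \ cmp D.R J i)) : a = 1 := by
  obtain ⟨t, ht, e⟩ := mm_conj GG_ok (R_ok D) (cmp_ort (R_ok D) hi) hm
  obtain ⟨s', h1, rfl⟩ := tor_cmp hi ha ht e
  obtain ⟨b, hb, s, hs, e⟩ := hm
  have := lj_T hD _ _ le_rfl (s' * s⁻¹) (by rw [map_mul, map_inv, e, mul_inv_cancel_right]; exact hb)
  rw [show s' = 1 from funext fun j => ?_, map_one]
  by_cases hj : j ∈ cmp D.R J i
  · simpa [hs j hj] using this j fun c => c.2 hj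
  · exact h1 j hj

end Vale.Agent.P011UIQ
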